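import Vale.Agent.Lib.P097.helper96.Disc

/-!
# P097: if the billiard map preserves the angle near the boundary, the table is a disc
-/

namespace Vale.Agent.Results.P097.AnglePreservingDisc

open Complex

/-- The plane is `ℂ`.  Let `γ : ℝ → ℂ` be a curve with unit tangent `T` and curvature `κ > 0`:
`γ' = T`, `‖T‖ = 1`, `T' = i κ T` (a unit speed curve which turns to the left, for instance the
counterclockwise arclength parametrization of the boundary of a strictly convex table).
A billiard segment leaves `γ s` in the direction `T s * e^{iδ}`, `0 < δ < π`, reaches the curve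
again at `γ s' = γ s + ℓ * T s * e^{iδ}`, `ℓ > 0`, and is reflected there into the direction
`T s' * e^{iδ'}`, `0 < δ' < π`; the law of reflection says `T s * e^{iδ} = T s' * e^{-iδ'}`.
Assume that for some `η > 0` every billiard segment with `δ < η` has `δ' = δ` (the billiard
map preserves the angle near the boundary).  Then the curve is a circle, run through
counterclockwise at unit speed: there are a centre `c` and a radius `R > 0` with `κ = 1 / R`,
`‖γ s - c‖ = R` and `γ s = c + R * (-i * T 0) * e^{i s / R}` for all `s`. -/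
theorem result (γ T : ℝ → ℂ) (κ : ℝ → ℝ)
    (hγ : ∀ s, HasDerivAt γ (T s) s) (hT1 : ∀ s, ‖T s‖ = 1)
    (hT : ∀ s, HasDerivAt T (κ s * I * T s) s) (hκ : ∀ s, 0 < κ s)
    (η : ℝ) (hη : 0 < η)
    (hbill : ∀ s s' δ δ' ℓ : ℝ, 0 < δ → δ < η → 0 < δ' → δ' < Real.pi → 0 < ℓ →
      γ s' = γ s + ℓ * (T s * exp (δ * I)) →
      T s * exp (δ * I) = T s' * exp (-(δ' * I)) → δ' = δ) :
    ∃ (c : ℂ) (R : ℝ), 0 < R ∧ (∀ s, κ s = 1 / R) ∧ (∀ s, ‖γ s - c‖ = R) ∧
      ∀ s, γ s = c + R * (-I * T 0) * exp ((s / R : ℝ) * I) :=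
  Vale.Agent.Lib.P097.H96.on_circle hγ hT1 hT hκ hη hbill

end Vale.Agent.Results.P097.AnglePreservingDisc
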