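import Vale.Agent.Lib.P097.helper96.Conic

/-!
# P097: if the billiard map preserves `sin δ / a(s)` near the boundary, the table is an ellipse
-/

namespace Vale.Agent.Results.P097.JoachimsthalEllipse

open Complex ComplexConjugate

/-- The plane is `ℂ`.  Let `γ : ℝ → ℂ` be a curve with unit tangent `T` and curvature `κ > 0`:
`γ' = T`, `‖T‖ = 1`, `T' = i κ T` (for instance the counterclockwise arclength parametrization
of the boundary of a strictly convex table).  A billiard segment leaves `γ s` in the direction
`T s * e^{iδ}`, `0 < δ < π`, reaches the curve again at `γ s' = γ s + ℓ * T s * e^{iδ}`, `ℓ > 0`,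
and is reflected there into the direction `T s' * e^{iδ'}`, `0 < δ' < π`; the law of reflection
says `T s * e^{iδ} = T s' * e^{-iδ'}`.  Let `a > 0` be a differentiable function of the
boundary parameter and assume that for some `η > 0` every billiard segment with `δ < η`
satisfies `sin δ' / a s' = sin δ / a s` (the billiard map preserves the function
`sin δ / a(s)` near the boundary, as it does for an ellipse, where `a` is the distance from
the centre to the tangent line).  Then the scaled inner normal `i T / a` is an affine function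
`α γ + β conj γ + b` of the point (`α` real), the curve lies on the conic
`α |x|² + Re (β conj x ²) + 2 Re (b conj x) = k`, and if the tangent is periodic (closed
curve) the quadratic part is negative definite (`α < 0`, `|β| < -α`): the conic is an
ellipse. -/
theorem result (γ T : ℝ → ℂ) (κ a a' : ℝ → ℝ)
    (hγ : ∀ s, HasDerivAt γ (T s) s) (hT1 : ∀ s, ‖T s‖ = 1)
    (hT : ∀ s, HasDerivAt T (κ s * I * T s) s) (hκ : ∀ s, 0 < κ s)
    (ha : ∀ s, 0 < a s) (ha' : ∀ s, HasDerivAt a (a' s) s)
    (η : ℝ) (hη : 0 < η)
    (hJ : ∀ s s' δ δ' ℓ : ℝ, 0 < δ → δ < η → 0 < δ' → δ' < Real.pi → 0 < ℓ →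
      γ s' = γ s + ℓ * (T s * exp (δ * I)) →
      T s * exp (δ * I) = T s' * exp (-(δ' * I)) →
      Real.sin δ' * a s = Real.sin δ * a s') :
    ∃ (α : ℝ) (β b : ℂ) (k : ℝ),
      (∀ s, I * T s / (a s : ℂ) = α * γ s + β * conj (γ s) + b) ∧
      (∀ s, α * ‖γ s‖ ^ 2 + (β * conj (γ s) ^ 2).re + 2 * (b * conj (γ s)).re = k) ∧
      (∀ L : ℝ, 0 < L → (∀ s, T (s + L) = T s) → α < 0 ∧ ‖β‖ < -α) :=
  Vale.Agent.Lib.P097.H96.main hγ hT1 hT hκ ha ha' hη hJ

end Vale.Agent.Results.P097.JoachimsthalEllipse
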